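import Vale.Agent.P092RW.Key
import Vale.Agent.P092.H494.PWl

/-!
P092, rank one, block W (helper18): finite energy implies the window property.
-/

set_option linter.all false

open scoped InnerProductSpace ENNReal NNReal
open MeasureTheory Filter Topology ContinuousLinearMap

namespace Vale.Agent.P092RW

open Vale.Agent.P092.RC (Cm)
open Vale.Agent.P092.H494.PW (WLim exists_wlim)
open Vale.Agent.P092CP Vale.Agent.P092RG Vale.Agent.P092RS Vale.Agent.P092.H793.Re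

variable {n n' : ℕ} {G G' K : Type} [Group G] [TopologicalSpace G] [IsTopologicalGroup G]
  [LocallyCompactSpace G] [SecondCountableTopology G] [T2Space G] [MeasurableSpace G] [BorelSpace G]
  [Group G'] [TopologicalSpace G'] [IsTopologicalGroup G'] [LocallyCompactSpace G']
  [SecondCountableTopology G'] [T2Space G'] [MeasurableSpace G'] [BorelSpace G']
  [NormedAddCommGroup K] [InnerProductSpace ℂ K] [CompleteSpace K] {μ : Measure G}
  [μ.IsHaarMeasure] {μ' : Measure G'} [μ'.IsHaarMeasure] {W : Set (K →L[ℂ] K)}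
  {ρ : G →* SLn n} {w : Fin n → ℝ} {ρ' : G' →* SLn n'} {w' : Fin n' → ℝ}
  (h : R1 ρ w) (h' : R1 ρ' w') (C : Cpl μ μ' W) {X X' : K →L[ℂ] K}

theorem sum_four {a b c d : ℝ≥0∞} {x : ℝ} (ha : a ≤ eo (x - 4)) (hb : b ≤ eo (x - 4))
    (hc : c ≤ eo (x - 4)) (hd : d ≤ eo (x - 4)) : 4 * (a + b + (c + d)) ≤ eo x := by
  calc _ ≤ 4 * (eo (x - 4) + eo (x - 4) + (eo (x - 4) + eo (x - 4))) := by gcongr
    _ = 4 * (4 * eo (x - 4)) := by ring
    _ ≤ eo 2 * (eo 2 * eo (x - 4)) :=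
        mul_le_mul' (four_le_eo le_rfl) (mul_le_mul_left (four_le_eo le_rfl) _)
    _ = _ := by simp only [← eo_add]; congr 1; ring

theorem mul_le_eo {a b : ℝ≥0∞} {x y z : ℝ} (ha : a ≤ eo x) (hb : b ≤ eo y) (e : x + y ≤ z) :
    a * b ≤ eo z := (mul_le_mul' ha hb).trans (by rw [← eo_add]; exact eo_mono e)

/-- the energy estimate along radii for which the window property fails -/
theorem est (hq : (2 : ℝ) ≤ (h'.Q : ℝ) - 2) (hQ : h'.Q ≤ h.Q) {c : ℝ} {ε₀ : G → ℝ≥0∞}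
    {ε : G → ℕ → ℝ≥0∞} (m₀ : Measurable ε₀) (m₁ : ∀ r, Measurable fun v => ε v r)
    (f₀ : ∫⁻ v in ball h 1, ε₀ v ∂μ ≠ ∞)
    (f₁ : Tendsto (fun r => ∫⁻ v in ball h 1, ε v r ∂μ) atTop (𝓝 0))
    (hl : ∀ v ∈ ball h 1, ∃ R, Lev h' C.t (ad C.s.π v X - X) c (ε₀ v) (ε v) R) (η : ℝ) :
    ∃ R₀ L₀ : ℝ, ∀ R, R₀ ≤ R → ∀ L, L₀ ≤ L →
      C.t.Tr (C.t.P (ball h' (L + R)) * C.s.P (ball h L)) ≤ eo (h.Q * L - R) →
        Fv h C X L ≤ eo (((h.Q : ℝ) - 2) * L - η) := by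
  obtain ⟨C₀, h0⟩ := h.ball_le μ
  obtain ⟨C₁, h1⟩ := exists_le_eo (a := (C.κ⁻¹ : ℝ≥0)) ENNReal.coe_ne_top
  obtain ⟨C₂, h2⟩ := exists_le_eo f₀
  obtain ⟨C₃, h3⟩ := exists_le_eo (ball_ne_top h μ 1)
  obtain ⟨d, hd⟩ := exists_nat_ge (max (η + 4 + C₂) (η + 6 + C₃ + 2 * c + C₁ + C₀) / 2)
  have d1 := le_max_left (η + 4 + C₂) (η + 6 + C₃ + 2 * c + C₁ + C₀)
  have d2 := le_max_right (η + 4 + C₂) (η + 6 + C₃ + 2 * c + C₁ + C₀)
  obtain ⟨r, hr⟩ := (f₁.eventually_le_const (u := eo (-(η + 4 + ((h'.Q : ℝ) - 2) * d)))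
    (pos_iff_ne_zero.2 (eo_ne_zero _))).exists
  refine ⟨max (d + r) (η + 8 + C₃ + 2 * c + 2 * d), d, fun R hR L hL hb => ?_⟩
  have r1 := (le_max_left _ _).trans hR
  have r2 := (le_max_right _ _).trans hR
  have L0 : 0 ≤ L := (Nat.cast_nonneg d).trans hL
  obtain ⟨m, hm⟩ := Nat.exists_eq_add_of_le (Nat.le_floor hL)
  have m1 : (d : ℝ) + m ≤ L := by have := Nat.floor_le L0; rw [hm] at this; exact_mod_cast this
  have m2 : L < d + m + 1 := by have := Nat.lt_floor_add_one L; rw [hm] at this; exact_mod_cast this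
  have hQ' : (h'.Q : ℝ) ≤ h.Q := Nat.cast_le.2 hQ
  have m0 : (0 : ℝ) ≤ m := Nat.cast_nonneg m
  have d0 : (0 : ℝ) ≤ d := Nat.cast_nonneg d
  have hP : C.t.Tr (C.s.P (ball h L)) ≤ eo (C₁ + (C₀ + h.Q * L)) := by
    rw [Tr_sP C (meas_ball h L)]
    exact mul_le_eo h1 (h0 L L0) le_rfl
  refine (setLIntegral_mono' (meas_ball h 1) fun v hv => ?_ : _ ≤ ∫⁻ v in ball h 1,
    4 * (ε₀ v * eo (((h'.Q : ℝ) - 2) * m) + ε v r * eo (((h'.Q : ℝ) - 2) * (m + 2 * d : ℕ)) +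
      (eo (2 * (c - (m + 2 * d : ℕ))) * C.t.Tr (C.s.P (ball h L)) + eo (2 * (c + 1 - m)) *
        C.t.Tr (C.t.P (ball h' (L + R)) * C.s.P (ball h L)))) ∂μ).trans ?_
  · obtain ⟨R', hR'⟩ := hl v hv
    rw [Dd, ad_one]
    exact lev_est C hR' hq (Nat.le_add_right m (2 * d)) r (meas_ball h L) (by push_cast; linarith)
  rw [lintegral_const_mul' _ _ (by norm_num),
    lintegral_add_right _ measurable_const,
    lintegral_add_left (m₀.mul_const _), lintegral_mul_const _ m₀, lintegral_mul_const _ (m₁ r),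
    setLIntegral_const, add_mul]
  push_cast
  refine sum_four (mul_le_eo h2 le_rfl ?_) (mul_le_eo hr le_rfl ?_)
    (mul_le_eo (mul_le_eo le_rfl hP le_rfl) h3 ?_) (mul_le_eo (mul_le_eo le_rfl hb le_rfl) h3 ?_)
  · nlinarith [mul_le_mul_of_nonneg_right hQ' L0, mul_le_mul_of_nonneg_right hq d0,
      mul_le_mul_of_nonneg_left m1 (zero_le_two.trans hq)]
  · nlinarith [mul_le_mul_of_nonneg_right hQ' L0,
      mul_le_mul_of_nonneg_left m1 (zero_le_two.trans hq)]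
  · linarith
  · linarith

theorem ad_add (π : G →* (K →L[ℂ] K)) (g : G) (X X' : K →L[ℂ] K) :
    ad π g (X + X') = ad π g X + ad π g X' := by rw [ad, ad, ad, mul_add, add_mul]

theorem ad_smul (π : G →* (K →L[ℂ] K)) (g : G) (c : ℂ) (X : K →L[ℂ] K) :
    ad π g (c • X) = c • ad π g X := by rw [ad, ad, mul_smul_comm, smul_mul_assoc]

theorem sm_zero (L : ℕ → ℝ) : Sm h C 0 L := fun η => Eventually.of_forall fun k => by
  simp only [Fv, Dd, ad, mul_zero, zero_mul, sub_self, C.t.Tr_zero, lintegral_zero, zero_le]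

theorem Sm.add (hX : Cm W X) {L : ℕ → ℝ} (a : Sm h C X L) (b : Sm h C X' L) :
    Sm h C (X + X') L := fun η => by
  filter_upwards [a (η + 4), b (η + 4)] with k a b
  have e : Fv h C (X + X') (L k) ≤ 2 * Fv h C X (L k) + 2 * Fv h C X' (L k) := by
    unfold Fv
    rw [← lintegral_const_mul' _ _ (by norm_num), ← lintegral_const_mul' _ _ (by norm_num),
      ← lintegral_add_left ((meas_Dd C hX continuous_id' continuous_const
        (meas_ball h _)).const_mul _)]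
    refine lintegral_mono fun v => le_trans (le_of_eq ?_) (C.t.Tr_add_le _ _)
    rw [Dd, ad_add, ad_add]
    congr 1
    noncomm_ring
  rw [← sub_sub] at a b
  refine e.trans (le_trans ?_ (sum_four a a b b))
  rw [← two_mul, ← two_mul]
  exact le_mul_of_one_le_left' (by norm_num)

theorem Sm.smul {L : ℕ → ℝ} (c : ℂ) (a : Sm h C X L) : Sm h C (c • X) L := fun η => by
  obtain ⟨x, hx⟩ := exists_le_eo (a := ‖c‖ₑ ^ 2) (ENNReal.pow_ne_top enorm_ne_top)
  filter_upwards [a (η + x)] with k a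
  have e : Fv h C (c • X) (L k) = ‖c‖ₑ ^ 2 * Fv h C X (L k) := by
    unfold Fv
    rw [← lintegral_const_mul' _ _ (ENNReal.pow_ne_top enorm_ne_top)]
    refine lintegral_congr fun v => ?_
    rw [Dd, Dd, ad_smul, ad_smul, ← smul_sub, smul_mul_assoc, C.t.Tr_smul]
  rw [e]
  exact mul_le_eo hx a (by linarith)

theorem eq_zero_of_balls {T : K →L[ℂ] K} (hT : Cm W T)
    (h0 : ∀ r : ℕ, C.t.Tr (T * C.s.P (ball h r)) = 0) : T = 0 := by
  refine ContinuousLinearMap.ext fun ξ => ?_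
  have h1 : Tendsto (fun r : ℕ => C.s.P (ball h r) ξ) atTop (𝓝 (C.s.m 1 ξ)) :=
    C.s.tendsto_m (C := 1) (F := fun r : ℕ => (ball h r).indicator 1)
      (fun r => measurable_one.indicator (meas_ball h r))
      (fun r x => (norm_indicator_le_norm_self _ _).trans (by simp)) Bd.one
      (Eventually.of_forall fun x => tendsto_const_nhds.congr' (by
        filter_upwards [tendsto_natCast_atTop_atTop.eventually_ge_atTop (h.rr x)] with r hr
        exact (Set.indicator_of_mem (show x ∈ ball h r from hr) _).symm)) ξ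
  rw [C.s.m_one] at h1
  refine tendsto_nhds_unique ((T.continuous.tendsto _).comp h1)
    (tendsto_const_nhds.congr fun r => ?_)
  exact (ap_eq (C.tr_zero _ (cm_mul hT (C.s.cm_P (meas_ball h r))) (h0 r)) ξ).symm

/-- the invariant limit -/
theorem exists_lim (hX : Cm W X) {L : ℕ → ℝ} (hL : Tendsto L atTop atTop) (hs : Sm h C X L) :
    ∃ (ι : Type) (U : Ultrafilter ι) (g : ι → G) (x : K →L[ℂ] K),
      WLim (U : Filter ι) (fun i => ad C.s.π (g i) X) x ∧ C.s.M x := by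
  classical
  have hk : ∀ i : Finset G × ℕ, ∃ g, ∀ t ∈ i.1.filter (Ch h),
      Dd C X (t * g) g (ball h i.2) ≤ (i.2 : ℝ≥0∞)⁻¹ := fun i =>
    key h C hX hL hs _ (fun t ht => (Finset.mem_filter.1 ht).2) _
      (ENNReal.inv_ne_zero.2 (ENNReal.natCast_ne_top _))
  choose g hg using hk
  set U : Ultrafilter (Finset G × ℕ) := Ultrafilter.of atTop
  have hU : (U : Filter (Finset G × ℕ)) ≤ atTop := Ultrafilter.of_le _
  obtain ⟨x, hx⟩ := exists_wlim U (fun i => ad C.s.π (g i) X) ‖X‖ fun i => C.s.norm_conj_le _ _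
  have cx : Cm W x := cm_of_weak (Eventually.of_forall fun i => cm_ad C hX (g i)) hx
  refine ⟨_, U, g, x, hx, cx, cp_of_conj fun t => ?_⟩
  let H : Subgroup G :=
    { carrier := {t | ad C.s.π t x = x}
      one_mem' := ad_one C x
      mul_mem' := fun {a b} ha hb => by
        show ad C.s.π (a * b) x = x
        rw [← ad_ad, show ad C.s.π b x = x from hb, show ad C.s.π a x = x from ha]
      inv_mem' := fun {a} ha => by
        show ad C.s.π a⁻¹ x = x
        conv_lhs => rw [← show ad C.s.π a x = x from ha]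
        rw [ad_ad, inv_mul_cancel, ad_one] }
  have hH : H = ⊤ := gen_ch h H fun t ht => sub_eq_zero.1 (eq_zero_of_balls h C
    (cm_sub (cm_ad C cx t) cx) fun r => ?_)
  · exact (hH.ge (Subgroup.mem_top t) : t ∈ H)
  refine le_antisymm (ge_of_tendsto' ENNReal.tendsto_inv_nat_nhds_zero fun N => ?_) zero_le
  have hw := ((((hx.mul_left (C.s.π t)).mul_right (C.s.π t⁻¹)).sub hx).mul_right
    (C.s.P (ball h r)))
  refine C.t.Tr_le_of_weak (Eventually.of_forall fun i => cm_mul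
    (cm_sub (cm_ad C (cm_ad C hX _) t) (cm_ad C hX _)) (C.s.cm_P (meas_ball h r))) hw
    (Eventually.frequently (hU ?_))
  filter_upwards [eventually_ge_atTop (({t}, max r N) : Finset G × ℕ)] with i hi
  have a1 := hg i t (Finset.mem_filter.2 ⟨hi.1 (Finset.mem_singleton_self t), ht⟩)
  have a2 : r ≤ i.2 := (le_max_left _ _).trans hi.2
  have a3 : N ≤ i.2 := (le_max_right _ _).trans hi.2
  have e : C.s.P (ball h r) = C.s.P (ball h i.2) * C.s.P (ball h r) := by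
    rw [C.s.P_mul (meas_ball h _) (meas_ball h _), Set.inter_eq_right.2
      (show ball h r ⊆ ball h i.2 from fun y hy =>
        le_trans (show h.rr y ≤ r from hy) (Nat.cast_le.2 a2))]
  show C.t.Tr ((ad C.s.π t (ad C.s.π (g i) X) - ad C.s.π (g i) X) * _) ≤ _
  rw [e, ← mul_assoc, ad_ad]
  exact (Tr_sP_le C (cm_mul (cm_sub (cm_ad C hX _) (cm_ad C hX _)) (C.s.cm_P (meas_ball h _)))
    (meas_ball h r)).trans (a1.trans (ENNReal.inv_le_inv.2 (Nat.cast_le.2 a3)))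

theorem fam {Φ : C(h'.Y, ℂ) →ₗ[ℂ] (K →L[ℂ] K)} (hΦ : PosU h' C Φ) {f : C(h'.Y, ℂ)} {ι : Type}
    {l : Filter ι} [l.NeBot] {g : ι → G} {x : K →L[ℂ] K}
    (hx : WLim l (fun i => ad C.s.π (g i) (Φ f)) x) (hM : C.s.M x) (z : ℂ) (k : Fin 3 → G')
    {b : ℝ} (hb : ∀ y, ‖∑ i, (z - f (k i • y))‖ ≤ b) : ‖3 * (z - C.s.τ x)‖ ≤ b := by
  have b0 : 0 ≤ b := (norm_nonneg _).trans (hb ((1 : G') : h'.Y))
  set F : Fin 3 → C(h'.Y, ℂ) := fun i => f.comp ⟨fun y => k i • y, continuous_const_smul _⟩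
  have hF : ∀ i, C.t.π (k i)⁻¹ * Φ f * C.t.π (k i)⁻¹⁻¹ = Φ (F i) := fun i =>
    hΦ.cov _ _ _ fun y => by simp [F]
  have hn : ‖∑ i, (z • (1 : C(h'.Y, ℂ)) - F i)‖ ≤ b := (ContinuousMap.norm_le _ b0).2 fun y => by
    rw [ContinuousMap.sum_apply]
    simpa only [F, ContinuousMap.sub_apply, ContinuousMap.smul_apply, ContinuousMap.one_apply,
      smul_eq_mul, mul_one, ContinuousMap.comp_apply, ContinuousMap.coe_mk] using hb y
  have hw := WLim.sum Finset.univ fun i _ => (WLim.const (l := l) (z • (1 : K →L[ℂ] K))).sub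
    ((hx.mul_left (C.t.π (k i)⁻¹)).mul_right (C.t.π (k i)⁻¹⁻¹))
  have h1 := hw.norm_le b0 (Eventually.frequently (Eventually.of_forall fun j => by
    refine le_trans (le_of_eq ?_) ((C.s.norm_conj_le (g j) _).trans ((hΦ.norm _).trans hn))
    congr 1
    rw [map_sum, Finset.mul_sum, Finset.sum_mul]
    refine Finset.sum_congr rfl fun i _ => ?_
    rw [map_sub, map_smul, hΦ.one, ← hF, mul_sub, sub_mul, mul_smul_comm, smul_mul_assoc, mul_one,
      pi_mul_inv, ad]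
    simp only [← mul_assoc]
    rw [← C.comm (g j), mul_assoc _ (C.s.π (g j)⁻¹), C.comm (g j)⁻¹, ← mul_assoc]))
  refine le_trans (le_of_eq ?_) ((C.s.norm_τ_le _).trans ((C.s.norm_Ω_le _).trans h1))
  congr 1
  simp only [Fin.sum_univ_three, C.s.τ_add, C.s.τ_sub, C.s.τ_smul, C.s.τ_one]
  have : ∀ i, C.s.τ (C.t.π (k i)⁻¹ * x * C.t.π (k i)⁻¹⁻¹) = C.s.τ x := fun i =>
    C.swap.τ_σ hM (k i)⁻¹
  rw [this, this, this]
  ring

/-- **finite energy implies the window property** -/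
theorem wn_of_fe (h2 : 2 ≤ h'.m2) (hQ : h'.Q ≤ h.Q) (hF : FE h h' C) : Wn h h' C := by
  by_contra hn
  have hb : ∀ k : ℕ, ∃ L : ℝ, (k : ℝ) ≤ L ∧
      C.t.Tr (C.t.P (ball h' (L + k)) * C.s.P (ball h L)) ≤ eo (h.Q * L - k) := fun k => by
    obtain ⟨L, h1, h2⟩ := ((not_eventually.1 fun e => hn ⟨k, e⟩).and_eventually
      (eventually_ge_atTop (k : ℝ))).exists
    exact ⟨L, h2, (not_le.1 h1).le⟩
  choose L hL hb using hb
  have hL' : Tendsto L atTop atTop := tendsto_atTop_mono hL tendsto_natCast_atTop_atTop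
  have hq : (2 : ℝ) ≤ (h'.Q : ℝ) - 2 := by
    have : 4 ≤ h'.Q := by unfold R1.Q; omega
    have : (4 : ℝ) ≤ h'.Q := by exact_mod_cast this
    linarith
  obtain ⟨Φ, hΦ, F, hd, hF⟩ := hF
  have hs : ∀ f ∈ Submodule.span ℂ F, Sm h C (Φ f) L := fun f hf => by
    induction hf using Submodule.span_induction with
    | mem f hf =>
      obtain ⟨c, ε₀, ε, m₀, m₁, f₀, f₁, hl⟩ := hF f hf
      intro η
      obtain ⟨R₀, L₀, he⟩ := est h h' C hq hQ m₀ m₁ f₀ f₁ hl η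
      filter_upwards [tendsto_natCast_atTop_atTop.eventually_ge_atTop R₀,
        hL'.eventually_ge_atTop L₀] with k h1 h2
      exact he k h1 _ h2 (hb k)
    | zero => rw [map_zero]; exact sm_zero h C L
    | add f g _ _ a b => rw [map_add]; exact a.add h C (hΦ.cm f) b
    | smul c f _ a => rw [map_smul]; exact a.smul h C c
  obtain ⟨f₀, h3⟩ := three h'
  obtain ⟨f, hf, hd⟩ := hd.exists_dist_lt f₀ (show (0 : ℝ) < 1 / 10 by norm_num)
  obtain ⟨ι, U, g, x, hx, hM⟩ := exists_lim h C (hΦ.cm f) hL' (hs f hf)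
  have h4 : ∀ z : ℂ, z = 0 ∨ z = 1 → ‖3 * (z - C.s.τ x)‖ ≤ 13 / 10 := fun z hz => by
    obtain ⟨k, hk⟩ := h3 z hz
    refine fam h' C hΦ hx hM z k fun y => ?_
    have e : ∑ i, (z - f (k i • y)) =
        ∑ i, (z - f₀ (k i • y)) + ∑ i, (f₀ (k i • y) - f (k i • y)) := by
      rw [← Finset.sum_add_distrib]; simp
    have a : ∀ y, ‖f₀ y - f y‖ ≤ 1 / 10 := fun y => by
      rw [← dist_eq_norm]; exact (ContinuousMap.dist_apply_le_dist y).trans hd.le
    have a' : ‖∑ i, (f₀ (k i • y) - f (k i • y))‖ ≤ ∑ _i : Fin 3, (1 / 10 : ℝ) :=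
      norm_sum_le_of_le _ fun i _ => a _
    rw [Fin.sum_univ_three (fun _ => (1 / 10 : ℝ))] at a'
    rw [e]
    linarith [norm_add_le (∑ i, (z - f₀ (k i • y))) (∑ i, (f₀ (k i • y) - f (k i • y))), hk y]
  have h5 := norm_sub_le (3 * (1 - C.s.τ x)) (3 * (0 - C.s.τ x))
  rw [show 3 * (1 - C.s.τ x) - 3 * (0 - C.s.τ x) = 3 by ring, Complex.norm_ofNat] at h5
  linarith [h4 0 (Or.inl rfl), h4 1 (Or.inr rfl)]

/-- **block W** -/
theorem bw : BW := fun h h' C _ h2 hQ hF => wn_of_fe h h' C h2 hQ hF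

end Vale.Agent.P092RW
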