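import Vale.Agent.P092CP.Cp
import Vale.Agent.P092EN.Cp
import Vale.Agent.P092RG.Rad

/-!
P092, rank one, block W (helper18): finite crossing energy, spread families, the window property.
-/

set_option linter.all false

open scoped InnerProductSpace ENNReal ContDiff
open MeasureTheory Filter Topology ContinuousLinearMap

namespace Vale.Agent.P092RW

open Vale.Agent.P092.RC (Cm)
open Vale.Agent.P092CP (Cpl)
open Vale.Agent.P092EN (Ucp Cov)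

section abs

variable {G G' K Y : Type} [Group G] [TopologicalSpace G] [MeasurableSpace G] [Group G']
  [TopologicalSpace G'] [MeasurableSpace G'] [NormedAddCommGroup K] [InnerProductSpace ℂ K]
  [CompleteSpace K] [TopologicalSpace Y] [CompactSpace Y] [MulAction G' Y]
  {μ : Measure G} {μ' : Measure G'} {W : Set (K →L[ℂ] K)}

/-- the ball of radius `R` around `z` -/
def Bl (rr : G → ℝ) (z : G) (R : ℝ) : Set G := {g | rr (z⁻¹ * g) ≤ R}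

/-- `ζ_g φ = σ_g Φ φ - Φ φ` -/
noncomputable def zt (π : G →* (K →L[ℂ] K)) (Φ : C(Y, ℂ) →ₗ[ℂ] (K →L[ℂ] K)) (g : G)
    (φ : C(Y, ℂ)) : K →L[ℂ] K := π g * Φ φ * π g⁻¹ - Φ φ

/-- **Finite crossing energy** for the test class `T` (`T H y`: the test `H` is adapted to `y`):
the tails of the crossing energy are uniformly small. -/
structure FE (C : Cpl μ μ' W) (rr : G → ℝ) (Kc : Subgroup G) (rr' : G' → ℝ)
    (T : C(Y, ℂ) → G' → Prop) (Φ : C(Y, ℂ) →ₗ[ℂ] (K →L[ℂ] K)) : Prop where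
  ucp : Ucp Φ
  cm : ∀ φ, Cm W (Φ φ)
  cov : Cov C.t.π Φ
  inv : ∀ κ ∈ Kc, ∀ φ, C.s.π κ * Φ φ * C.s.π κ⁻¹ = Φ φ
  tail : ∀ (r : ℝ) (η : ℝ≥0∞), 0 < η → ∃ R : ℝ, ∀ (H : C(Y, ℂ)) (U : Set G'), MeasurableSet U →
    (∀ y ∈ U, R ≤ rr' y ∧ T H y) →
      ∫⁻ g in Bl rr 1 r, C.t.Tr (zt C.s.π Φ g H * C.t.P U) ∂μ ≤ η

/-- **Spread families**: probability measures near the spheres which give mass `e^{-Q l}` to
balls. -/
structure Spr (rr : G → ℝ) (Q : ℝ) (lam : ℝ → Measure G) : Prop where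
  prob : ∀ l, IsProbabilityMeasure (lam l)
  shell : ∃ r₀ : ℝ, ∀ᶠ l in atTop, ∀ᵐ z ∂lam l, |rr z - l| ≤ r₀
  ovl : ∀ r : ℝ, ∃ c : ℝ, ∀ᶠ l in atTop, ∀ y : G,
    lam l {z | rr (z⁻¹ * y) ≤ r} ≤ ENNReal.ofReal (c * Real.exp (-(Q * l)))

/-- **The window property** along the family `lam` -/
def Wn (C : Cpl μ μ' W) (rr : G → ℝ) (rr' : G' → ℝ) (lam : ℝ → Measure G) : Prop :=
  ∃ (D : ℝ) (c : ℝ≥0∞), 0 < c ∧ ∀ᶠ l in atTop,
    c ≤ ∫⁻ z, C.t.Tr (C.t.P (Bl rr' 1 (l + D)) * C.s.P (Bl rr z D)) ∂lam l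

end abs

section one

open Matrix Vale.Agent.P092.H793.Re Vale.Agent.P092RG

variable {n n' : ℕ} {G G' K : Type} [Group G] [TopologicalSpace G] [MeasurableSpace G] [Group G']
  [TopologicalSpace G'] [MeasurableSpace G'] [NormedAddCommGroup K] [InnerProductSpace ℂ K]
  [CompleteSpace K] {μ : Measure G} {μ' : Measure G'} {W : Set (K →L[ℂ] K)}
  {ρ : G →* SLn n} {w : Fin n → ℝ} {ρ' : G' →* SLn n'} {w' : Fin n' → ℝ}

/-- the tests: members of the smooth family `Ψ (p, ·)`, `p ∈ S`, read on the boundary in the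
matrix model, which vanish near the direction of `y` -/
def Ts (h : R1 ρ w) (D₀ : ℝ) {P : Type} (Ψ : P × (Fin n → Fin n → ℝ) → ℝ) (S : Set P)
    (H : C(G ⧸ h.P, ℂ)) (y : G) : Prop :=
  (∃ p ∈ S, ∀ κ ∈ h.K, H (κ : G ⧸ h.P) = (Ψ (p, (ρ κ).1 * h.Pt * (ρ κ).1ᵀ) : ℝ)) ∧
    ∀ κ ∈ h.K, H (κ : G ⧸ h.P) ≠ 0 → h.rr y - D₀ ≤ h.hs (y⁻¹ * κ)

/-- **Finite crossing energy in rank one** (the output of block A) -/
def FE1 (C : Cpl μ μ' W) (h : R1 ρ w) (h' : R1 ρ' w') [CompactSpace (G' ⧸ h'.P)] : Prop :=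
  ∀ (D₀ : ℝ) (P : Type) [NormedAddCommGroup P] [NormedSpace ℝ P] [FiniteDimensional ℝ P]
    (Ψ : P × (Fin n' → Fin n' → ℝ) → ℝ) (S : Set P), ContDiff ℝ ∞ Ψ → IsCompact S →
      ∃ Φ, FE C h.rr h.K h'.rr (Ts h' D₀ Ψ S) Φ

/-- **The window property in rank one** (the output of block W) -/
def W1 (C : Cpl μ μ' W) (h : R1 ρ w) (h' : R1 ρ' w') : Prop :=
  ∀ lam : ℝ → Measure G, Spr h.rr h.Q lam → Wn C h.rr h'.rr lam

end one

end Vale.Agent.P092RW
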