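import Vale.Agent.P092RS.Defs
import Vale.Agent.P092RG.QuoM

/-!
P092, rank one, block W (helper18): geometry (overlap, chains, three translates).
-/

set_option linter.all false

open scoped ENNReal NNReal
open MeasureTheory Filter Topology Matrix

namespace Vale.Agent.P092RW

open Vale.Agent.P092RG Vale.Agent.P092RS Vale.Agent.P092.H793.Re

variable {n : ℕ} {G : Type} [Group G] [TopologicalSpace G] [IsTopologicalGroup G]
  {ρ : G →* SLn n} {w : Fin n → ℝ} (h : R1 ρ w)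

/-- `t a_l` is joined to `a_l` by at most `C e^l` short steps near the sphere of radius `l` -/
def Ch (t : G) : Prop := ∃ r : ℝ, ∀ l : ℝ, 0 ≤ l → ∃ (m : ℕ) (u : ℕ → G),
  (m : ℝ≥0∞) ≤ eo (r + l) ∧ u 0 = h.a l ∧ u m = t * h.a l ∧
    ∀ j < m, h.rr ((u j)⁻¹ * u (j + 1)) ≤ 1 / 2 ∧ |h.rr (u j) - l| ≤ r

theorem ch_M {m : G} (hm : m ∈ h.M) : Ch h m := by
  refine ⟨0, fun l hl => ⟨1, fun j => if j = 0 then h.a l else m * h.a l, ?_, rfl, rfl,
    fun j hj => ?_⟩⟩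
  · rw [Nat.cast_one, ← eo_zero]; exact eo_mono (by linarith)
  · obtain rfl : j = 0 := by omega
    simp only [if_true, zero_add, one_ne_zero, if_false]
    rw [h.L_comm_a (h.M_le_L hm), inv_mul_cancel_left, h.rr_K (h.M_le_K hm), h.rr_a,
      abs_of_nonneg hl]
    norm_num

theorem ch_ex {j : ℝ} (hj : -1 ≤ j) {X : Mat n} (hX : X ∈ h.g j) : Ch h (ex ρ X) := by
  have hc : Continuous fun s : ℝ => h.rr (ex ρ (s • X)) :=
    h.continuous_rr.comp (h.continuous_ex (by fun_prop) fun s => lie_smul s hX.1)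
  obtain ⟨δ, hδ, hd⟩ : ∃ δ > 0, ∀ s : ℝ, |s| < δ → h.rr (ex ρ (s • X)) ≤ 1 / 2 := by
    have h1 : ∀ᶠ s : ℝ in 𝓝 0, h.rr (ex ρ (s • X)) ≤ 1 / 2 :=
      (hc.tendsto 0).eventually_le_const (by rw [zero_smul, h.ex_zero, h.rr_one]; norm_num)
    obtain ⟨δ, hδ, hd⟩ := Metric.eventually_nhds_iff.1 h1
    exact ⟨δ, hδ, fun s hs => hd (by simpa using hs)⟩
  obtain ⟨r₀, hr₀⟩ := (isCompact_Icc (a := (0 : ℝ)) (b := 1)).bddAbove_image hc.continuousOn
  have h0 : 0 ≤ r₀ := (h.rr_nonneg _).trans (hr₀ ⟨0, by simp, rfl⟩)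
  refine ⟨r₀ + δ⁻¹ + 2, fun l hl => ?_⟩
  obtain ⟨m, hm⟩ : ∃ m : ℕ, m = ⌈δ⁻¹ * Real.exp l⌉₊ + 1 := ⟨_, rfl⟩
  have hi : 0 < δ⁻¹ := inv_pos.2 hδ
  have he : 1 ≤ Real.exp l := Real.one_le_exp hl
  have m1 : δ⁻¹ * Real.exp l < m := by
    rw [hm]; push_cast; linarith [Nat.le_ceil (δ⁻¹ * Real.exp l)]
  have m2 : (m : ℝ) ≤ δ⁻¹ * Real.exp l + 2 := by
    rw [hm]; push_cast; linarith [Nat.ceil_lt_add_one (show 0 ≤ δ⁻¹ * Real.exp l by positivity)]
  have m0 : (0 : ℝ) < m := lt_of_le_of_lt (by positivity) m1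
  refine ⟨m, fun i => ex ρ (((i : ℝ) / m) • X) * h.a l, ?_, ?_, ?_, fun i hi => ⟨?_, ?_⟩⟩
  · rw [← ENNReal.ofReal_natCast]
    refine ENNReal.ofReal_le_ofReal (m2.trans ?_)
    rw [Real.exp_add]
    nlinarith [Real.add_one_le_exp (r₀ + δ⁻¹ + 2)]
  · simp only [Nat.cast_zero, zero_div, zero_smul, h.ex_zero, one_mul]
  · simp only [div_self m0.ne', one_smul]
  · have e : (ex ρ (((i : ℝ) / m) • X) * h.a l)⁻¹ * (ex ρ ((((i + 1 : ℕ) : ℝ) / m) • X) * h.a l) =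
        ex ρ ((Real.exp (j * -l) * (1 / m)) • X) := by
      rw [Nat.cast_succ, add_div, h.ex_smul_add hX.1, mul_smul,
        ← h.Ad_a (-l) (hX.2.smul (1 / (m : ℝ))), h.ex_Ad _ (lie_smul _ hX.1), h.a_neg]
      group
    rw [e]
    refine hd _ ?_
    have h1 : Real.exp (j * -l) ≤ Real.exp l := Real.exp_le_exp.2 (by nlinarith)
    rw [abs_of_pos (by positivity), mul_one_div, div_lt_iff₀ m0]
    have h2 : Real.exp l < δ * m := by
      have := mul_lt_mul_of_pos_left m1 hδ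
      rwa [← mul_assoc, mul_inv_cancel₀ hδ.ne', one_mul] at this
    linarith
  · have h1 := h.abs_rr_mul_sub (ex ρ (((i : ℝ) / m) • X)) (h.a l)
    rw [h.rr_a, abs_of_nonneg hl] at h1
    have h2 : h.rr (ex ρ (((i : ℝ) / m) • X)) ≤ r₀ := hr₀ ⟨_, ⟨by positivity,
      (div_le_one m0).2 (Nat.cast_le.2 hi.le)⟩, rfl⟩
    linarith

theorem ex_tr_not_mem {X : Mat n} (hX : X ∈ h.g 1) (h0 : X ≠ 0) : ex ρ Xᵀ ∉ h.P := fun hP => by
  have h1 : SUp w (NormedSpace.exp X - 1) := (hX.2.sup one_pos).exp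
  have h2 : Up w (NormedSpace.exp X)ᵀ := by
    have := h.mem_P.1 hP
    rwa [ex_val (h.lie_tr hX.1), Matrix.exp_transpose] at this
  have h3 : NormedSpace.exp X = 1 := by
    refine sub_eq_zero.1 (Matrix.ext fun a b => by_contra fun hne => ?_)
    have h4 := h1 a b hne
    have h5 : a ≠ b := fun e => by rw [e] at h4; exact lt_irrefl _ h4
    rw [Matrix.sub_apply, Matrix.one_apply_ne h5, sub_zero] at hne
    exact absurd (h2 b a hne) (not_le.2 h4)
  have h6 : ex ρ (X + 0) = ex ρ ((0 : Mat n) + 0) := by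
    rw [add_zero, add_zero, h.ex_zero]
    exact h.inj (by rw [ex_val hX.1, h3, vone])
  have h7 := h.nX_nn hX (zero_mem _)
  rw [h6, h.nX_nn (zero_mem _) (zero_mem _)] at h7
  exact h0 h7.symm

/-- the elements with chains generate the group -/
theorem gen_ch (H : Subgroup G) (hH : ∀ t, Ch h t → t ∈ H) : H = ⊤ := by
  have hN : h.N ≤ H := fun u hu => by
    have e := h.bch (h.nX_mem u) (zero_mem _) (zero_mem _) (h.nZ_mem u)
    simp only [add_zero, zero_add, mul_zero, zero_mul, sub_zero, smul_zero] at e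
    rw [← h.N_eq hu, ← e]
    exact H.mul_mem (hH _ (ch_ex h (by norm_num) (h.nX_mem u)))
      (hH _ (ch_ex h (by norm_num) (h.nZ_mem u)))
  have hA : ∀ s, h.a s ∈ H := fun s => by
    rw [← h.ex_H]
    refine hH _ (ch_ex h (j := 0) (by norm_num) (Submodule.smul_mem _ s ⟨h.lie, fun a b hab => ?_⟩))
    by_cases e : a = b
    · rw [e, sub_self]
    · exact absurd (diagonal_apply_ne _ e) hab
  have hP : h.P ≤ H := fun p hp => by
    obtain ⟨u, hu, m, hm, s, rfl⟩ := h.P_decomp hp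
    exact H.mul_mem (H.mul_mem (hN hu) (hH _ (ch_M h hm))) (hA s)
  obtain ⟨X, h1, h2, h3⟩ := h.one
  have hX : X ∈ h.g 1 := ⟨h1, h3⟩
  have hx : ex ρ Xᵀ ∈ H := hH _ (ch_ex h (j := -1) le_rfl ⟨h.lie_tr h1, fun a b hab => by
    have := h3 b a hab
    linarith⟩)
  obtain ⟨u, hu, p, hp, e⟩ := (h.bruhat _).resolve_left (ex_tr_not_mem h hX h2)
  have hw : h.w0 ∈ H := by
    have : h.w0 = u⁻¹ * ex ρ Xᵀ * p⁻¹ := by rw [e]; group
    rw [this]
    exact H.mul_mem (H.mul_mem (H.inv_mem (hN hu)) hx) (H.inv_mem (hP hp))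
  refine eq_top_iff.2 fun g _ => ?_
  rcases h.bruhat g with hg | ⟨u, hu, p, hp, rfl⟩
  · exact hP hg
  · exact H.mul_mem (H.mul_mem (hN hu) hw) (hP hp)

/-- north-south dynamics -/
theorem north_south {p q : h.Y} {O V : Set h.Y} (hO : O ∈ 𝓝 p) (hV : V ∈ 𝓝 q) :
    ∃ g : G, ∀ y, g • y ∉ O → y ∈ V := by
  obtain ⟨ε, hε, he⟩ := h.exists_dv_ball hO
  obtain ⟨δ, hδ, hd⟩ := h.exists_dv_ball hV
  obtain ⟨κ, hκ, rfl⟩ := h.exists_K p
  obtain ⟨κ', hκ', rfl⟩ := h.exists_K q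
  obtain ⟨s, hs⟩ : ∃ s : ℝ, Real.exp (-(2 * s)) < ε * δ :=
    ⟨-Real.log (ε * δ / 2) / 2, by
      rw [show -(2 * (-Real.log (ε * δ / 2) / 2)) = Real.log (ε * δ / 2) by ring,
        Real.exp_log (by positivity)]
      linarith [mul_pos hε hδ]⟩
  refine ⟨κ * h.w0⁻¹ * h.a (-s) * κ'⁻¹, fun y hy => hd y ?_⟩
  set z := (h.a (-s) * κ'⁻¹) • y with hz
  have e1 : h.dv (κ : h.Y) ((κ * h.w0⁻¹ * h.a (-s) * κ'⁻¹) • y) = h.dv (h.w0 : h.Y) z := by
    rw [← h.dv_K_smul (h.K.mul_mem hκ (h.K.inv_mem h.w0_mem)) (h.w0 : h.Y), h.smul_mkY, hz,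
      ← mul_smul]
    congr 2 <;> group
  have e2 : h.dv (κ' : h.Y) y = h.dv (h.a s • ((1 : G) : h.Y)) (h.a s • z) := by
    rw [← h.dv_K_smul hκ' (h.a s • _), h.smul_mkY, h.smul_mkY, mul_one, h.mkY_mul (h.a_mem_P s), hz,
      ← mul_smul, ← mul_smul, h.a_neg]
    congr 1
    rw [show κ' * h.a s * ((h.a s)⁻¹ * κ'⁻¹) = 1 by group, one_smul]
  have h1 : ε ≤ h.dv (h.w0 : h.Y) z := e1 ▸ not_lt.1 fun hlt => hy (he _ hlt)
  have h2 := h.dv_le_one (h.a s • (h.w0 : h.Y)) (h.a s • z)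
  have c1 : h.co (h.a s) ((1 : G) : h.Y) = s := by rw [h.co_K _ h.K.one_mem, mul_one, h.hs_a]
  have c2 : h.co (h.a s) (h.w0 : h.Y) = -s := by
    have := h.w0_a (-s)
    rw [neg_neg] at this
    rw [h.co_K _ h.w0_mem, ← this, h.hs_K_mul h.w0_mem, h.hs_a]
  rw [h.dv_smul, c2] at h2
  rw [e2, h.dv_smul, c1]
  have e3 : Real.exp (-(s + h.co (h.a s) z)) =
      Real.exp (-(2 * s)) * Real.exp (-(-s + h.co (h.a s) z)) := by
    rw [← Real.exp_add]; congr 1; ring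
  have h3 := h.dv_le_one ((1 : G) : h.Y) z
  have h4 := h.dv_nonneg ((1 : G) : h.Y) z
  have h5 := Real.exp_pos (-(-s + h.co (h.a s) z))
  have h6 := Real.exp_pos (-(2 * s))
  set A := Real.exp (-(-s + h.co (h.a s) z))
  have h7 : A * ε ≤ 1 := (mul_le_mul_of_nonneg_left h1 h5.le).trans h2
  rw [e3]
  calc Real.exp (-(2 * s)) * A * h.dv _ z ≤ Real.exp (-(2 * s)) * A * 1 := by gcongr
    _ < ε * δ * A * 1 := by gcongr
    _ ≤ δ := by nlinarith

variable [SecondCountableTopology G] [MeasurableSpace G] [BorelSpace G]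

theorem three_aux {φ : h.Y → ℂ} (h1 : ∀ y, ‖φ y‖ ≤ 1) {p : h.Y} (h0 : ∀ᶠ y in 𝓝 p, φ y = 0) :
    ∃ g : Fin 3 → G, ∀ y, ‖∑ i, φ (g i • y)‖ ≤ 1 := by
  haveI : Infinite h.Y := not_finite_iff_infinite.1 fun hf => by
    haveI : NoAtoms h.νY := ⟨h.νY_singleton⟩
    have := (Set.toFinite (Set.univ : Set h.Y)).measure_zero h.νY
    rw [measure_univ] at this
    exact one_ne_zero this
  have hq : Pairwise (Function.onFun Disjoint fun i : Fin 3 =>
      𝓝 (Infinite.natEmbedding h.Y i)) := fun i j hij =>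
    disjoint_nhds_nhds.2 fun e => hij (Fin.ext ((Infinite.natEmbedding h.Y).injective e))
  obtain ⟨V, hV, hd⟩ := hq.exists_mem_filter_of_disjoint
  choose g hg using fun i => north_south h h0 (hV i)
  refine ⟨g, fun y => ?_⟩
  by_cases hy : ∃ i, φ (g i • y) ≠ 0
  · obtain ⟨i, hi⟩ := hy
    rw [Finset.sum_eq_single i (fun j _ hj => by_contra fun hne =>
      Set.disjoint_left.1 (hd hj) (hg j y hne) (hg i y hi)) fun hi => absurd (Finset.mem_univ i) hi]
    exact h1 _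
  · rw [Finset.sum_eq_zero fun i _ => by_contra fun hne => hy ⟨i, hne⟩, norm_zero]
    exact zero_le_one

/-- three disjoint translates -/
theorem three : ∃ f : C(h.Y, ℂ), ∀ z : ℂ, z = 0 ∨ z = 1 →
    ∃ g : Fin 3 → G, ∀ y, ‖∑ i, (z - f (g i • y))‖ ≤ 1 := by
  have hc : Continuous fun y => h.dv ((1 : G) : h.Y) y :=
    h.continuous_dv.comp (f := fun y => (((1 : G) : h.Y), y)) (by fun_prop)
  set F : h.Y → ℝ := fun y => max 0 (min 1 (3 * h.dv ((1 : G) : h.Y) y - 1)) with hF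
  have F0 : ∀ y, 0 ≤ F y := fun y => le_max_left _ _
  have F1 : ∀ y, F y ≤ 1 := fun y => max_le zero_le_one (min_le_left _ _)
  refine ⟨⟨fun y => (F y : ℂ), by fun_prop⟩, ?_⟩
  rintro z (rfl | rfl)
  · refine three_aux h (φ := fun y => 0 - (F y : ℂ)) (p := ((1 : G) : h.Y)) (fun y => ?_) ?_
    · rw [zero_sub, norm_neg, Complex.norm_real, Real.norm_eq_abs, abs_of_nonneg (F0 y)]
      exact F1 y
    · filter_upwards [(hc.tendsto ((1 : G) : h.Y)).eventually_le_const (u := 1 / 3)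
        (by rw [h.dv_self]; norm_num)] with y hy
      have : F y = 0 := max_eq_left ((min_le_right _ _).trans (by linarith))
      rw [this]; simp
  · refine three_aux h (φ := fun y => 1 - (F y : ℂ)) (p := (h.w0 : h.Y)) (fun y => ?_) ?_
    · rw [← Complex.ofReal_one, ← Complex.ofReal_sub, Complex.norm_real, Real.norm_eq_abs,
        abs_of_nonneg (by linarith [F1 y])]
      linarith [F0 y]
    · filter_upwards [(hc.tendsto (h.w0 : h.Y)).eventually_const_le (u := 2 / 3) (by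
        rw [h.dv_K h.K.one_mem h.w0_mem, inv_one, one_mul, h.bd_w0]; norm_num)] with y hy
      have : F y = 1 := by
        rw [hF]
        simp only
        rw [min_eq_left (by linarith), max_eq_right zero_le_one]
      rw [this]; simp

variable [LocallyCompactSpace G] (μ : Measure G) [μ.IsHaarMeasure]

theorem meas_ball (R : ℝ) : MeasurableSet (ball h R) :=
  measurableSet_le h.measurable_rr measurable_const

theorem ball_ne_top (R : ℝ) : μ (ball h R) ≠ ∞ := (h.isCompact_ball R).measure_lt_top.ne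

theorem ball_ne_zero {R : ℝ} (hR : 0 < R) : μ (ball h R) ≠ 0 :=
  (Measure.measure_pos_of_mem_nhds μ (x := 1)
    ((h.continuous_rr.tendsto 1).eventually_le_const (by rw [h.rr_one]; exact hR))).ne'

/-- the overlap of the translates of a ball -/
theorem overlap (r : ℝ) : ∃ C : ℝ, ∀ x y : G,
    μ.restrict (ball h (1 / 4)) {u | h.rr (x * u * y) ≤ r} ≤ eo (C - h.Q * h.rr x) := by
  haveI := h.haar_right μ
  obtain ⟨C₀, h0⟩ := h.le_shell μ
  obtain ⟨C₁, h1⟩ := exists_le_eo (ENNReal.mul_ne_top (ball_ne_top h μ (r + 1))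
    (ball_ne_top h μ (1 / 4)))
  refine ⟨C₁ + C₀ + h.Q * (r + 1), fun x y => ?_⟩
  rw [Measure.restrict_apply' (meas_ball h _)]
  set E := {u | h.rr (x * u * y) ≤ r} ∩ ball h (1 / 4)
  rcases E.eq_empty_or_nonempty with hE | ⟨u₀, hu, hu'⟩
  · rw [hE, measure_empty]; exact zero_le
  have hy : h.rr x - (r + 1) ≤ h.rr y := by
    have a1 := h.rr_mul_le (x * u₀ * y) y⁻¹
    have a2 := h.rr_mul_le (x * u₀) u₀⁻¹
    rw [mul_inv_cancel_right, h.rr_inv] at a1 a2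
    have a3 : h.rr (x * u₀ * y) ≤ r := hu
    have a4 : h.rr u₀ ≤ 1 / 4 := hu'
    linarith
  set E' : Set (G × G) := {p | h.rr (x * p.1 * p.2) ≤ r + 1} ∩ Prod.fst ⁻¹' ball h (1 / 4)
  have hE' : MeasurableSet E' := (measurableSet_le (h.measurable_rr.comp (by fun_prop))
    measurable_const).inter (measurable_fst (meas_ball h _))
  have a1 : ∀ z ∈ {g | |h.rr g - h.rr y| ≤ 1}, μ E ≤ μ ((fun u => (u, z)) ⁻¹' E') := by
    intro z hz
    obtain ⟨κ, hκ, κ', hκ', ez⟩ := h.kak_rr z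
    obtain ⟨κ₁, hκ₁, κ₂, hκ₂, ey⟩ := h.kak_rr y
    rw [← measure_preimage_mul_right μ (κ₁ * κ⁻¹) ((fun u => (u, z)) ⁻¹' E')]
    refine measure_mono fun u hu => ⟨?_, ?_⟩
    · have e : x * (u * (κ₁ * κ⁻¹)) * z =
          x * u * y * (κ₂⁻¹ * h.a (-h.rr y + h.rr z) * κ') := by
        rw [h.a_add, h.a_neg]
        generalize h.a (h.rr y) = ay at ey
        generalize h.a (h.rr z) = az at ez
        rw [ey, ez]
        group
      show h.rr (x * (u * (κ₁ * κ⁻¹)) * z) ≤ r + 1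
      rw [e]
      refine (h.rr_mul_le _ _).trans (add_le_add hu.1 ?_)
      rw [h.rr_kak' (h.K.inv_mem hκ₂) hκ', neg_add_eq_sub]
      exact hz
    · show h.rr (u * (κ₁ * κ⁻¹)) ≤ 1 / 4
      rw [h.rr_mul_K _ (h.K.mul_mem hκ₁ (h.K.inv_mem hκ))]
      exact hu.2
  have a2 : μ E * μ {g | |h.rr g - h.rr y| ≤ 1} ≤ eo C₁ := by
    calc μ E * μ {g | |h.rr g - h.rr y| ≤ 1}
        = ∫⁻ _ in {g | |h.rr g - h.rr y| ≤ 1}, μ E ∂μ := (setLIntegral_const _ _).symm
      _ ≤ ∫⁻ z, μ ((fun u => (u, z)) ⁻¹' E') ∂μ :=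
          (setLIntegral_mono' (h.measurableSet_shell _) a1).trans (setLIntegral_le_lintegral _ _)
      _ = ∫⁻ u, μ (Prod.mk u ⁻¹' E') ∂μ := by
          rw [← Measure.prod_apply hE', Measure.prod_apply_symm hE']
      _ ≤ ∫⁻ u, (ball h (1 / 4)).indicator (fun _ => μ (ball h (r + 1))) u ∂μ := by
          refine lintegral_mono fun u => ?_
          by_cases hu : u ∈ ball h (1 / 4)
          · rw [Set.indicator_of_mem hu, ← measure_preimage_mul μ (x * u) (ball h (r + 1))]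
            exact measure_mono fun z hz => hz.1
          · rw [show Prod.mk u ⁻¹' E' = ∅ from Set.eq_empty_of_forall_notMem fun z hz => hu hz.2,
              measure_empty]
            exact zero_le
      _ ≤ _ := by rw [lintegral_indicator_const (meas_ball h _)]; exact h1
  have a3 := le_mul_eo ((mul_le_mul_right (h0 _ (h.rr_nonneg y)) _).trans a2)
  rw [← eo_add] at a3
  refine a3.trans (eo_mono ?_)
  nlinarith [mul_le_mul_of_nonneg_left hy h.Q_pos'.le]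

end Vale.Agent.P092RW
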