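import Vale.Agent.P092RW.Tr
import Vale.Agent.P092RW.Geo

/-!
P092, rank one, block W (helper18): small energy on balls gives almost invariant translates.
-/

set_option linter.all false

open scoped InnerProductSpace ENNReal NNReal
open MeasureTheory Filter Topology ContinuousLinearMap

namespace Vale.Agent.P092RW

open Vale.Agent.P092.RC (Cm)
open Vale.Agent.P092CP Vale.Agent.P092RG Vale.Agent.P092RS Vale.Agent.P092.H793.Re

variable {n n' : ℕ} {G G' K : Type} [Group G] [TopologicalSpace G] [IsTopologicalGroup G]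
  [LocallyCompactSpace G] [SecondCountableTopology G] [T2Space G] [MeasurableSpace G] [BorelSpace G]
  [Group G'] [TopologicalSpace G'] [IsTopologicalGroup G'] [LocallyCompactSpace G']
  [SecondCountableTopology G'] [T2Space G'] [MeasurableSpace G'] [BorelSpace G']
  [NormedAddCommGroup K] [InnerProductSpace ℂ K] [CompleteSpace K] {μ : Measure G}
  [μ.IsHaarMeasure] {μ' : Measure G'} [μ'.IsHaarMeasure] {W : Set (K →L[ℂ] K)}
  {ρ : G →* SLn n} {w : Fin n → ℝ} {ρ' : G' →* SLn n'} {w' : Fin n' → ℝ}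
  (h : R1 ρ w) (C : Cpl μ μ' W) {X : K →L[ℂ] K}

/-- the distance of two translates of `X`, seen on the set `A` -/
noncomputable def Dd (X : K →L[ℂ] K) (g₁ g₂ : G) (A : Set G) : ℝ≥0∞ :=
  C.t.Tr ((ad C.s.π g₁ X - ad C.s.π g₂ X) * C.s.P A)

/-- the energy of `X` on the ball of radius `L` -/
noncomputable def Fv (X : K →L[ℂ] K) (L : ℝ) : ℝ≥0∞ := ∫⁻ v in ball h 1, Dd C X v 1 (ball h L) ∂μ

theorem ad_one (X : K →L[ℂ] K) : ad C.s.π 1 X = X := by
  rw [ad, inv_one, map_one, one_mul, mul_one]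

theorem ad_ad (g g' : G) (X : K →L[ℂ] K) : ad C.s.π g (ad C.s.π g' X) = ad C.s.π (g * g') X :=
  C.s.conj_conj g g' X

theorem cm_ad (hX : Cm W X) (g : G) : Cm W (ad C.s.π g X) := C.s.conj X hX g

theorem Dd_mul (hX : Cm W X) (g g₁ g₂ : G) {A : Set G} (hA : MeasurableSet A) :
    Dd C X (g * g₁) (g * g₂) A = Dd C X g₁ g₂ ((fun y => g * y) ⁻¹' A) := by
  have hB : MeasurableSet ((fun y => g * y) ⁻¹' A) := measurable_const_mul g hA
  have e : C.s.π g * C.s.P ((fun y => g * y) ⁻¹' A) * C.s.π g⁻¹ = C.s.P A := by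
    rw [C.s.π_P hB, mul_assoc, pi_mul_inv, mul_one]
    congr 1
    ext y
    simp
  unfold Dd
  rw [← C.Tr_σ (cm_mul (cm_sub (cm_ad C hX g₁) (cm_ad C hX g₂)) (C.s.cm_P hB)) g, C.s.conj_mul, e,
    mul_sub, sub_mul (C.s.π g * _), ← ad_ad, ← ad_ad]
  rfl

theorem Dd_tri (X : K →L[ℂ] K) (g₁ g₂ g₃ : G) (A : Set G) :
    Dd C X g₁ g₂ A ≤ 2 * Dd C X g₁ g₃ A + 2 * Dd C X g₂ g₃ A := by
  unfold Dd
  rw [← C.t.Tr_neg ((ad C.s.π g₂ X - _) * _)]
  refine le_trans (le_of_eq ?_) (C.t.Tr_add_le _ _)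
  congr 1
  noncomm_ring

theorem Dd_chain (X : K →L[ℂ] K) (u : ℕ → G) (m : ℕ) (A : Set G) :
    Dd C X (u m) (u 0) A ≤ m * ∑ j ∈ Finset.range m, Dd C X (u (j + 1)) (u j) A := by
  unfold Dd
  rw [← Finset.sum_range_sub (fun j => ad C.s.π (u j) X), Finset.sum_mul]
  exact Tr_sum_le C.t _ _

theorem meas_Dd (hX : Cm W X) {α : Type} [TopologicalSpace α] [MeasurableSpace α]
    [OpensMeasurableSpace α] {e₁ e₂ : α → G} (h₁ : Continuous e₁) (h₂ : Continuous e₂) {A : Set G}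
    (hA : MeasurableSet A) : Measurable fun a => Dd C X (e₁ a) (e₂ a) A :=
  meas_Tr C.t (((sc_ad C.s h₁ X).sub (sc_ad C.s h₂ X)).mul (SC.const _)) fun a =>
    cm_mul (cm_sub (cm_ad C hX _) (cm_ad C hX _)) (C.s.cm_P hA)

theorem step (hX : Cm W X) (x : G) (r : ℝ) {b u' : G} (hb : h.rr b ≤ 1 / 2)
    (hu : u' ∈ ball h (1 / 4)) :
    ∫⁻ u in ball h (1 / 4), Dd C X (x * b * u) (x * u') (ball h r) ∂μ ≤
      ∫⁻ v in ball h 1, Dd C X (x * u' * v) (x * u') (ball h r) ∂μ := by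
  rw [← lintegral_indicator (meas_ball h _), ← lintegral_indicator (meas_ball h _),
    ← lintegral_mul_left_eq_self (μ := μ) ((ball h 1).indicator _) (u'⁻¹ * b)]
  refine lintegral_mono fun u => ?_
  by_cases h1 : u ∈ ball h (1 / 4)
  · have h2 : u'⁻¹ * b * u ∈ ball h 1 := by
      have a1 := h.rr_mul_le (u'⁻¹ * b) u
      have a2 := h.rr_mul_le u'⁻¹ b
      rw [h.rr_inv] at a2
      have a3 : h.rr u ≤ 1 / 4 := h1
      have a4 : h.rr u' ≤ 1 / 4 := hu
      show h.rr _ ≤ 1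
      linarith
    rw [Set.indicator_of_mem h1, Set.indicator_of_mem h2]
    exact le_of_eq (by congr 1; group)
  · rw [Set.indicator_of_notMem h1]; exact zero_le

theorem spread (hX : Cm W X) (x : G) {r L : ℝ} (hL : h.rr x + r + 1 ≤ L) {Θ : ℝ≥0∞} (h0 : Θ ≠ ∞)
    (hΘ : ∀ y, μ.restrict (ball h (1 / 4)) {u | h.rr (x * u * y) ≤ r} ≤ Θ) :
    ∫⁻ u in ball h (1 / 4), ∫⁻ v in ball h 1, Dd C X (x * u * v) (x * u) (ball h r) ∂μ ∂μ ≤
      Θ * Fv h C X L := by
  rw [lintegral_lintegral_swap (meas_Dd C hX (e₁ := fun p : G × G => x * p.1 * p.2)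
    (e₂ := fun p : G × G => x * p.1) (by fun_prop) (by fun_prop) (meas_ball h r)).aemeasurable,
    Fv, ← lintegral_const_mul' _ _ h0]
  refine lintegral_mono fun v => ?_
  have hE : MeasurableSet {p : G × G | h.rr (x * p.1 * p.2) ≤ r} :=
    measurableSet_le (h.measurable_rr.comp (by fun_prop)) measurable_const
  refine le_trans (le_of_eq (lintegral_congr fun u => ?_)) (ovl C _ hE (meas_ball h L)
    ((ae_restrict_iff' (meas_ball h _)).2 (Eventually.of_forall fun u hu y hy => ?_)) hΘ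
    (cm_sub (cm_ad C hX v) (cm_ad C hX 1)))
  · have := Dd_mul C hX (x * u) v 1 (meas_ball h r)
    rw [mul_one] at this
    exact this
  · have a1 := h.rr_mul_le (x * u)⁻¹ (x * u * y)
    have a2 := h.rr_mul_le x u
    rw [inv_mul_cancel_left, h.rr_inv] at a1
    have a3 : h.rr u ≤ 1 / 4 := hu
    have a4 : h.rr (x * u * y) ≤ r := hy
    show h.rr y ≤ L
    linarith

theorem one_step (hX : Cm W X) (x : G) {b : G} (hb : h.rr b ≤ 1 / 2) {r L : ℝ}
    (hL : h.rr x + r + 1 ≤ L) {Θ : ℝ≥0∞} (h0 : Θ ≠ ∞)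
    (hΘ : ∀ y, μ.restrict (ball h (1 / 4)) {u | h.rr (x * u * y) ≤ r} ≤ Θ) :
    (∫⁻ u in ball h (1 / 4), Dd C X (x * b * u) (x * u) (ball h r) ∂μ) * μ (ball h (1 / 4)) ≤
      4 * (Θ * Fv h C X L) := by
  rw [← setLIntegral_const]
  refine le_trans ?_ (mul_le_mul_right (spread h C hX x hL h0 hΘ) 4)
  rw [← lintegral_const_mul' _ _ (by norm_num)]
  refine lintegral_mono_ae ((ae_restrict_iff' (meas_ball h _)).2
    (Eventually.of_forall fun u' hu => ?_))
  have a1 := step h C hX x r hb hu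
  have a2 := step h C hX x r (b := 1) (by rw [h.rr_one]; norm_num) hu
  simp only [mul_one] at a2
  refine (lintegral_mono fun u => Dd_tri C X _ _ (x * u') _).trans ?_
  rw [lintegral_add_left ((meas_Dd C hX (by fun_prop) continuous_const (meas_ball h r)).const_mul _),
    lintegral_const_mul' _ _ (by norm_num), lintegral_const_mul' _ _ (by norm_num)]
  refine (add_le_add (mul_le_mul_right a1 2) (mul_le_mul_right a2 2)).trans (le_of_eq ?_)
  ring

/-- the energy on large balls is small -/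
def Sm (X : K →L[ℂ] K) (L : ℕ → ℝ) : Prop :=
  ∀ η : ℝ, ∀ᶠ k in atTop, Fv h C X (L k) ≤ eo (((h.Q : ℝ) - 2) * L k - η)

theorem tendsto_ch (hX : Cm W X) {L : ℕ → ℝ} (hL : Tendsto L atTop atTop) (hs : Sm h C X L)
    {t : G} (ht : Ch h t) (r : ℝ) : ∀ᶠ j : ℝ in atTop, Tendsto (fun k =>
      (∫⁻ u in ball h (1 / 4), Dd C X (t * (h.a (L k - j) * u)) (h.a (L k - j) * u) (ball h r) ∂μ) *
        μ (ball h (1 / 4))) atTop (𝓝 0) := by
  obtain ⟨r₁, hc⟩ := ht
  obtain ⟨C₀, ho⟩ := overlap h μ r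
  filter_upwards [eventually_ge_atTop (r₁ + r + 1)] with j hj
  refine ENNReal.tendsto_nhds_zero.2 fun ε hε => ?_
  obtain ⟨η, hη⟩ := exists_eo_le hε.ne'
  filter_upwards [hs (2 * r₁ + 2 + C₀ + h.Q * r₁ + (h.Q - 2) * j - η),
    hL.eventually_ge_atTop j] with k hk hj'
  obtain ⟨m, u, hm, h0, h1, h2⟩ := hc (L k - j) (sub_nonneg.2 hj')
  set l := L k - j with hl
  have a1 : ∀ i ∈ Finset.range m,
      (∫⁻ v in ball h (1 / 4), Dd C X (u (i + 1) * v) (u i * v) (ball h r) ∂μ) *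
        μ (ball h (1 / 4)) ≤ 4 * (eo (C₀ - h.Q * (l - r₁)) * Fv h C X (L k)) := fun i hi => by
    obtain ⟨b1, b2⟩ := h2 i (Finset.mem_range.1 hi)
    have b3 := abs_le.1 b2
    have := one_step h C hX (u i) b1 (r := r) (L := L k) (by linarith [b3.2]) (eo_ne_top _)
      fun y => (ho (u i) y).trans (eo_mono (y := C₀ - h.Q * (l - r₁))
        (by nlinarith [h.Q_pos', b3.1]))
    simpa only [mul_inv_cancel_left] using this
  calc _ ≤ (∫⁻ v in ball h (1 / 4), m * ∑ i ∈ Finset.range m,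
        Dd C X (u (i + 1) * v) (u i * v) (ball h r) ∂μ) * μ (ball h (1 / 4)) := by
        refine mul_le_mul_left (lintegral_mono fun v => ?_) _
        have := Dd_chain C X (fun i => u i * v) m (ball h r)
        simpa only [h0, h1, mul_assoc] using this
    _ = m * ∑ i ∈ Finset.range m, (∫⁻ v in ball h (1 / 4),
        Dd C X (u (i + 1) * v) (u i * v) (ball h r) ∂μ) * μ (ball h (1 / 4)) := by
        rw [lintegral_const_mul' _ _ (ENNReal.natCast_ne_top m), lintegral_finset_sum _ fun i _ =>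
          meas_Dd C hX (by fun_prop) (by fun_prop) (meas_ball h r), mul_assoc, Finset.sum_mul]
    _ ≤ m * (m * (4 * (eo (C₀ - h.Q * (l - r₁)) * Fv h C X (L k)))) := by
        refine mul_le_mul_right ((Finset.sum_le_sum a1).trans (le_of_eq ?_)) _
        rw [Finset.sum_const, Finset.card_range, nsmul_eq_mul]
    _ ≤ eo (r₁ + l) * (eo (r₁ + l) * (eo 2 * (eo (C₀ - h.Q * (l - r₁)) * eo _))) :=
        mul_le_mul' hm (mul_le_mul' hm (mul_le_mul' (four_le_eo le_rfl) (mul_le_mul_right hk _)))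
    _ = eo η := by
        simp only [← eo_add]
        congr 1
        rw [hl]
        ring
    _ ≤ ε := hη

/-- **almost invariant translates** -/
theorem key (hX : Cm W X) {L : ℕ → ℝ} (hL : Tendsto L atTop atTop) (hs : Sm h C X L)
    (T : Finset G) (hT : ∀ t ∈ T, Ch h t) (r : ℝ) {δ : ℝ≥0∞} (hδ : δ ≠ 0) :
    ∃ g, ∀ t ∈ T, Dd C X (t * g) g (ball h r) ≤ δ := by
  obtain ⟨j, hj⟩ := ((eventually_all_finset T).2 fun t ht =>
    tendsto_ch h C hX hL hs (hT t ht) r).exists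
  have h1 := tendsto_finset_sum T hj
  rw [Finset.sum_const_zero] at h1
  have b0 := ball_ne_zero h μ (R := 1 / 4) (by norm_num)
  obtain ⟨k, hk⟩ := (h1.eventually_lt_const (u := δ * μ (ball h (1 / 4)) * μ (ball h (1 / 4)))
    (pos_iff_ne_zero.2 (mul_ne_zero (mul_ne_zero hδ b0) b0))).exists
  by_contra hn
  push Not at hn
  refine absurd hk (not_lt.2 ?_)
  rw [← Finset.sum_mul, ← lintegral_finset_sum _ fun t _ =>
    meas_Dd C hX (by fun_prop) (by fun_prop) (meas_ball h r), ← setLIntegral_const _ δ]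
  refine mul_le_mul_left (lintegral_mono fun u => ?_) _
  obtain ⟨t, ht, h2⟩ := hn (h.a (L k - j) * u)
  exact h2.le.trans (Finset.single_le_sum (f := fun t => Dd C X (t * (h.a (L k - j) * u))
    (h.a (L k - j) * u) (ball h r)) (fun _ _ => zero_le) ht)

end Vale.Agent.P092RW
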