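import Vale.Agent.P092RS.Defs
import Vale.Agent.P092CP.Cp
import Vale.Agent.P092RG.Vol

/-!
P092, rank one, block W (helper18): trace estimates.
-/

set_option linter.all false

open scoped InnerProductSpace ENNReal NNReal
open MeasureTheory Filter Topology ContinuousLinearMap

namespace Vale.Agent.P092RW

open Vale.Agent.P092.RC (Cm)
open Vale.Agent.P092CP Vale.Agent.P092RG Vale.Agent.P092RS Vale.Agent.P092.H793.Re

section sc

variable {K α β : Type} [NormedAddCommGroup K] [InnerProductSpace ℂ K] [TopologicalSpace α]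
  [TopologicalSpace β] {X X' : α → K →L[ℂ] K}

/-- jointly continuous families of operators -/
def SC (X : α → K →L[ℂ] K) : Prop := Continuous fun p : α × K => X p.1 p.2

theorem SC.const (T : K →L[ℂ] K) : SC fun _ : α => T := T.continuous.comp continuous_snd

theorem SC.mul (h : SC X) (h' : SC X') : SC fun a => X a * X' a :=
  Continuous.comp (f := fun p : α × K => (p.1, X' p.1 p.2)) h (continuous_fst.prodMk h')

theorem SC.sub (h : SC X) (h' : SC X') : SC fun a => X a - X' a := Continuous.sub h h'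

theorem SC.comp (h : SC X) {e : β → α} (he : Continuous e) : SC fun b => X (e b) :=
  Continuous.comp (f := fun p : β × K => (e p.1, p.2)) h
    ((he.comp continuous_fst).prodMk continuous_snd)

theorem SC.ap (h : SC X) (ξ : K) : Continuous fun a => X a ξ :=
  Continuous.comp (f := fun a : α => (a, ξ)) h (continuous_id.prodMk continuous_const)

end sc

theorem four_le_eo {q : ℝ} (hq : 2 ≤ q) : (4 : ℝ≥0∞) ≤ eo q := by
  have h1 : (2 : ℝ) ≤ Real.exp 1 := by linarith [Real.add_one_le_exp 1]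
  have h2 : (4 : ℝ) ≤ Real.exp q := by
    calc (4 : ℝ) = 2 * 2 := by norm_num
      _ ≤ Real.exp 1 * Real.exp 1 := mul_le_mul h1 h1 (by norm_num) (by linarith)
      _ = Real.exp 2 := by rw [← Real.exp_add]; norm_num
      _ ≤ _ := Real.exp_le_exp.2 hq
  simpa [eo] using ENNReal.ofReal_le_ofReal h2

theorem enorm_sq_le_eo {E : Type*} [NormedAddCommGroup E] {T : E} {x : ℝ}
    (h : ‖T‖ ≤ Real.exp x) : ‖T‖ₑ ^ 2 ≤ eo (2 * x) := by
  have h1 : ‖T‖ₑ ≤ eo x := by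
    rw [← ofReal_norm_eq_enorm]
    exact ENNReal.ofReal_le_ofReal h
  rw [two_mul, eo_add, sq]
  exact mul_le_mul' h1 h1

theorem enorm_sum_sq_le {E : Type*} [NormedAddCommGroup E] (n : ℕ) (u : ℕ → E) :
    ‖∑ j ∈ Finset.range n, u j‖ₑ ^ 2 ≤ n * ∑ j ∈ Finset.range n, ‖u j‖ₑ ^ 2 := by
  have h1 : ‖∑ j ∈ Finset.range n, u j‖₊ ^ 2 ≤ n * ∑ j ∈ Finset.range n, ‖u j‖₊ ^ 2 := by
    refine (pow_le_pow_left' (nnnorm_sum_le _ _) 2).trans ?_
    have := sq_sum_le_card_mul_sum_sq (s := Finset.range n) (f := fun j => (‖u j‖₊ : ℝ))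
    rw [Finset.card_range] at this
    exact_mod_cast this
  simp only [enorm_eq_nnnorm]
  exact_mod_cast h1

variable {G G' K : Type} [Group G] [TopologicalSpace G] [IsTopologicalGroup G]
  [LocallyCompactSpace G] [SecondCountableTopology G] [T2Space G] [MeasurableSpace G] [BorelSpace G]
  [Group G'] [TopologicalSpace G'] [IsTopologicalGroup G'] [LocallyCompactSpace G']
  [SecondCountableTopology G'] [T2Space G'] [MeasurableSpace G'] [BorelSpace G']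
  [NormedAddCommGroup K] [InnerProductSpace ℂ K] [CompleteSpace K] {μ : Measure G}
  [μ.IsHaarMeasure] {μ' : Measure G'} [μ'.IsHaarMeasure] {W : Set (K →L[ℂ] K)}
  {T : K →L[ℂ] K}

section side

variable (S : Side μ W)

theorem sc_π : SC S.π := by
  refine continuous_prod_of_continuous_lipschitzWith' _ 1 (fun g => ?_) S.cont
  exact LipschitzWith.of_dist_le_mul fun ξ η => by
    rw [dist_eq_norm, dist_eq_norm, ← map_sub, S.norm_π, NNReal.coe_one, one_mul]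

theorem sc_ad {α : Type} [TopologicalSpace α] {e : α → G} (he : Continuous e) (X : K →L[ℂ] K) :
    SC fun a => ad S.π (e a) X :=
  (((sc_π S).comp he).mul (SC.const X)).mul ((sc_π S).comp he.inv)

theorem meas_Tr {α : Type} [TopologicalSpace α] [MeasurableSpace α] [OpensMeasurableSpace α]
    {X : α → K →L[ℂ] K} (h : SC X) (hc : ∀ a, Cm W (X a)) : Measurable fun a => S.Tr (X a) := by
  haveI := S.cnt
  simp only [fun a => S.Tr_eq_tsum (hc a)]
  refine Measurable.const_mul (Measurable.ennreal_tsum fun γ => ?_) _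
  exact ((h.ap _).enorm.measurable).pow_const 2

theorem Tr_sum_le (n : ℕ) (T : ℕ → K →L[ℂ] K) :
    S.Tr (∑ j ∈ Finset.range n, T j) ≤ n * ∑ j ∈ Finset.range n, S.Tr (T j) := by
  unfold Side.Tr
  rw [← lintegral_finset_sum _ fun j _ => S.meas_π (T j) S.Ω,
    ← lintegral_const_mul' _ _ (ENNReal.natCast_ne_top n)]
  refine lintegral_mono fun g => ?_
  rw [ContinuousLinearMap.sum_apply]
  exact enorm_sum_sq_le n _

/-- geometric sums of levels -/
theorem Tr_geo {R : ℕ → K →L[ℂ] K} {e : ℝ≥0∞} {q : ℝ} (hq : 2 ≤ q) {s₀ s : ℕ} (hs : s₀ ≤ s)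
    (h : ∀ i < s, S.Tr (R i - R (i + 1)) ≤ e * eo (q * i)) :
    S.Tr (R s₀ - R s) ≤ e * eo (q * s) := by
  induction s, hs using Nat.le_induction with
  | base => rw [sub_self, S.Tr_zero]; exact zero_le
  | succ s hs ih =>
    have h1 := ih fun i hi => h i (hi.trans s.lt_succ_self)
    have h2 := h s s.lt_succ_self
    calc S.Tr (R s₀ - R (s + 1)) = S.Tr ((R s₀ - R s) + (R s - R (s + 1))) := by
          rw [sub_add_sub_cancel]
      _ ≤ 2 * (e * eo (q * s)) + 2 * (e * eo (q * s)) :=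
          (S.Tr_add_le _ _).trans (add_le_add (mul_le_mul_right h1 _) (mul_le_mul_right h2 _))
      _ = e * (eo (q * s) * 4) := by ring
      _ ≤ e * (eo (q * s) * eo q) := mul_le_mul_right (mul_le_mul_right (four_le_eo hq) _) _
      _ = _ := by rw [← eo_add]; congr 2; push_cast; ring

/-- overlap, for vectors -/
theorem ovl_vec {α : Type} [MeasurableSpace α] (ν : Measure α) [SFinite ν] {E : Set (α × G)}
    (hE : MeasurableSet E) {A : Set G} (hA : MeasurableSet A) {Θ : ℝ≥0∞}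
    (hS : ∀ᵐ a ∂ν, Prod.mk a ⁻¹' E ⊆ A) (hΘ : ∀ y, ν ((fun a => (a, y)) ⁻¹' E) ≤ Θ) (ξ : K) :
    Measurable (fun a => ‖S.P (Prod.mk a ⁻¹' E) ξ‖ₑ ^ 2) ∧
      ∫⁻ a, ‖S.P (Prod.mk a ⁻¹' E) ξ‖ₑ ^ 2 ∂ν ≤ Θ * ‖S.P A ξ‖ₑ ^ 2 := by
  set m := μ.withDensity fun x => ‖S.U ξ x‖ₑ ^ 2 with hm
  have h1 : ∀ B, MeasurableSet B → ‖S.P B ξ‖ₑ ^ 2 = m B := fun B hB => by
    rw [S.enorm_P hB, hm, withDensity_apply _ hB]
  haveI : IsFiniteMeasure m := isFiniteMeasure_withDensity (by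
    rw [← S.enorm_U]; exact ENNReal.pow_ne_top enorm_ne_top)
  simp only [fun a => h1 _ (measurable_prodMk_left (x := a) hE), h1 A hA]
  refine ⟨measurable_measure_prodMk_left hE, ?_⟩
  calc ∫⁻ a, m (Prod.mk a ⁻¹' E) ∂ν = ∫⁻ a, m.restrict A (Prod.mk a ⁻¹' E) ∂ν :=
        lintegral_congr_ae (hS.mono fun a ha => (Measure.restrict_eq_self m ha).symm)
    _ = ∫⁻ y, ν ((fun a => (a, y)) ⁻¹' E) ∂m.restrict A := by
        rw [← Measure.prod_apply hE, Measure.prod_apply_symm hE]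
    _ ≤ ∫⁻ _, Θ ∂m.restrict A := lintegral_mono hΘ
    _ = _ := by rw [lintegral_const, Measure.restrict_apply_univ]

theorem ovl_left {α : Type} [MeasurableSpace α] (ν : Measure α) [SFinite ν] {E : Set (α × G)}
    (hE : MeasurableSet E) {A : Set G} (hA : MeasurableSet A) {Θ : ℝ≥0∞}
    (hS : ∀ᵐ a ∂ν, Prod.mk a ⁻¹' E ⊆ A) (hΘ : ∀ y, ν ((fun a => (a, y)) ⁻¹' E) ≤ Θ)
    (hT : Cm W T) : ∫⁻ a, S.Tr (S.P (Prod.mk a ⁻¹' E) * T) ∂ν ≤ Θ * S.Tr (S.P A * T) := by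
  haveI := S.cnt
  simp only [fun a => S.Tr_eq_tsum (cm_mul (S.cm_P (measurable_prodMk_left (x := a) hE)) hT),
    S.Tr_eq_tsum (cm_mul (S.cm_P hA) hT), mul_ap]
  rw [lintegral_const_mul' _ _ S.vol,
    lintegral_tsum fun γ => (ovl_vec S ν hE hA hS hΘ _).1.aemeasurable, mul_left_comm Θ,
    ← ENNReal.tsum_mul_left (a := Θ)]
  exact mul_le_mul_right (ENNReal.tsum_le_tsum fun γ => (ovl_vec S ν hE hA hS hΘ _).2) _

end side

variable (C : Cpl μ μ' W)

theorem Tr_le_one (hT : Cm W T) {a : K →L[ℂ] K} (ha : Cm W a) (h1 : ‖a‖ ≤ 1) :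
    C.t.Tr (T * a) ≤ C.t.Tr T := by
  refine (C.Tr_mul_le hT ha).trans (mul_le_of_le_one_left' (pow_le_one' ?_ 2))
  rw [← ofReal_norm_eq_enorm]
  exact ENNReal.ofReal_le_one.2 h1

theorem Tr_sP_le (hT : Cm W T) {A : Set G} (hA : MeasurableSet A) :
    C.t.Tr (T * C.s.P A) ≤ C.t.Tr T := Tr_le_one C hT (C.s.cm_P hA) (C.s.norm_P_le hA)

theorem Tr_tP_mono (hT : Cm W T) {A B : Set G'} (hA : MeasurableSet A) (hB : MeasurableSet B)
    (h : A ⊆ B) : C.t.Tr (T * C.t.P A) ≤ C.t.Tr (T * C.t.P B) := by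
  have : C.t.P A = C.t.P B * C.t.P A := by rw [C.t.P_mul hB hA, Set.inter_eq_right.2 h]
  rw [this, ← mul_assoc]
  exact Tr_le_one C (cm_mul hT (C.t.cm_P hB)) (C.t.cm_P hA) (C.t.norm_P_le hA)

theorem Tr_tP_mono' {A B : Set G'} (hA : MeasurableSet A) (hB : MeasurableSet B) (h : A ⊆ B)
    (T : K →L[ℂ] K) : C.t.Tr (C.t.P A * T) ≤ C.t.Tr (C.t.P B * T) := by
  have : C.t.P A = C.t.P A * C.t.P B := by rw [C.t.P_mul hA hB, Set.inter_eq_left.2 h]
  rw [this, mul_assoc]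
  refine (C.t.Tr_mul_le _ _).trans (mul_le_of_le_one_left' (pow_le_one' ?_ 2))
  rw [← ofReal_norm_eq_enorm]
  exact ENNReal.ofReal_le_one.2 (C.t.norm_P_le hA)

theorem Tr_flip (hT : Cm W T) {A : Set G} (hA : MeasurableSet A) :
    C.t.Tr (T * C.s.P A) = (C.κ⁻¹ : ℝ≥0) * C.s.Tr (C.s.P A * adjoint T) := by
  have h1 := cm_mul hT (C.s.cm_P hA)
  have h2 : adjoint (T * C.s.P A) = C.s.P A * adjoint T := by
    rw [← star_eq_adjoint, star_mul, star_eq_adjoint, star_eq_adjoint, C.s.adjoint_P hA]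
  rw [← C.tr_adj _ h1, ← h2]
  exact C.swap.tr_eq _ (C.adj_cm h1)

theorem Tr_sP {A : Set G} (hA : MeasurableSet A) : C.t.Tr (C.s.P A) = (C.κ⁻¹ : ℝ≥0) * μ A := by
  rw [← C.s.Tr_P hA]
  exact C.swap.tr_eq _ (C.s.cm_P hA)

/-- **overlap** -/
theorem ovl {α : Type} [MeasurableSpace α] (ν : Measure α) [SFinite ν] {E : Set (α × G)}
    (hE : MeasurableSet E) {A : Set G} (hA : MeasurableSet A) {Θ : ℝ≥0∞}
    (hS : ∀ᵐ a ∂ν, Prod.mk a ⁻¹' E ⊆ A) (hΘ : ∀ y, ν ((fun a => (a, y)) ⁻¹' E) ≤ Θ)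
    (hT : Cm W T) :
    ∫⁻ a, C.t.Tr (T * C.s.P (Prod.mk a ⁻¹' E)) ∂ν ≤ Θ * C.t.Tr (T * C.s.P A) := by
  simp only [fun a => Tr_flip C hT (measurable_prodMk_left (x := a) hE), Tr_flip C hT hA]
  rw [lintegral_const_mul' _ _ ENNReal.coe_ne_top, mul_left_comm Θ]
  exact mul_le_mul_right (ovl_left C.s ν hE hA hS hΘ (C.adj_cm hT)) _

variable {n' : ℕ} {ρ' : G' →* SLn n'} {w' : Fin n' → ℝ} {h' : R1 ρ' w'}

/-- **the four terms** -/
theorem lev_est {D : K →L[ℂ] K} {c : ℝ} {ε₀ : ℝ≥0∞} {ε : ℕ → ℝ≥0∞} {R : ℕ → (K →L[ℂ] K)}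
    (h : Lev h' C.t D c ε₀ ε R) (hq : (2 : ℝ) ≤ (h'.Q : ℝ) - 2) {s₀ s : ℕ} (hs : s₀ ≤ s) (r : ℕ)
    {A : Set G} (hA : MeasurableSet A) {t : ℝ} (ht : (s : ℝ) + r ≤ t) :
    C.t.Tr (D * C.s.P A) ≤ 4 * (ε₀ * eo (((h'.Q : ℝ) - 2) * s₀) +
      ε r * eo (((h'.Q : ℝ) - 2) * s) + (eo (2 * (c - s)) * C.t.Tr (C.s.P A) +
      eo (2 * (c + 1 - s₀)) * C.t.Tr (C.t.P (ball h' t) * C.s.P A))) := by
  set B : Set G' := {x | (s : ℝ) + r ≤ h'.rr x}
  have hB : MeasurableSet B := measurableSet_le measurable_const h'.measurable_rr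
  have hn : ∀ j : ℕ, ‖R j‖ ≤ Real.exp (c - j) := fun j => (h.op j).trans (by
    rw [sub_eq_add_neg, Real.exp_add]
    exact mul_le_mul_of_nonneg_right (by linarith [Real.add_one_le_exp c]) (Real.exp_pos _).le)
  have hn' : ‖R s₀ - R s‖ ≤ Real.exp (c + 1 - s₀) := by
    have h1 : Real.exp (c - s) ≤ Real.exp (c - s₀) :=
      Real.exp_le_exp.2 (by have : (s₀ : ℝ) ≤ s := Nat.cast_le.2 hs; linarith)
    have h2 : Real.exp (c + 1 - s₀) = Real.exp 1 * Real.exp (c - s₀) := by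
      rw [← Real.exp_add]; congr 1; ring
    have h3 : (2 : ℝ) ≤ Real.exp 1 := by linarith [Real.add_one_le_exp 1]
    nlinarith [norm_sub_le (R s₀) (R s), hn s₀, hn s, Real.exp_pos (c - s₀)]
  have e : D * C.s.P A = ((R 0 - R s₀) * C.s.P A + (R s₀ - R s) * C.t.P B * C.s.P A) +
      (R s * C.s.P A + (R s₀ - R s) * (C.t.P Bᶜ * C.s.P A)) := by
    rw [C.t.P_compl hB, ← h.zero]; noncomm_ring
  have a1 : C.t.Tr ((R 0 - R s₀) * C.s.P A) ≤ ε₀ * eo (((h'.Q : ℝ) - 2) * s₀) :=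
    (Tr_sP_le C (cm_sub (h.cm _) (h.cm _)) hA).trans
      (Tr_geo C.t hq (Nat.zero_le _) fun i _ => h.hs i)
  have a2 : C.t.Tr ((R s₀ - R s) * C.t.P B * C.s.P A) ≤ ε r * eo (((h'.Q : ℝ) - 2) * s) := by
    refine (Tr_sP_le C (cm_mul (cm_sub (h.cm _) (h.cm _)) (C.t.cm_P hB)) hA).trans ?_
    rw [sub_mul]
    refine Tr_geo C.t (R := fun i => R i * C.t.P B) hq hs fun i hi => ?_
    rw [← sub_mul]
    refine (Tr_tP_mono C (cm_sub (h.cm _) (h.cm _)) hB
      (measurableSet_le measurable_const h'.measurable_rr) fun x hx => ?_).trans (h.tail i r)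
    have : (i : ℝ) ≤ s := Nat.cast_le.2 hi.le
    exact le_trans (by linarith) (show (s : ℝ) + r ≤ h'.rr x from hx)
  have a3 : C.t.Tr (R s * C.s.P A) ≤ eo (2 * (c - s)) * C.t.Tr (C.s.P A) :=
    (C.t.Tr_mul_le _ _).trans (mul_le_mul_left (enorm_sq_le_eo (hn s)) _)
  have a4 : C.t.Tr ((R s₀ - R s) * (C.t.P Bᶜ * C.s.P A)) ≤
      eo (2 * (c + 1 - s₀)) * C.t.Tr (C.t.P (ball h' t) * C.s.P A) :=
    (C.t.Tr_mul_le _ _).trans (mul_le_mul' (enorm_sq_le_eo hn') (Tr_tP_mono' C hB.compl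
      (measurableSet_le h'.measurable_rr measurable_const)
      (fun x hx => (not_le.1 (show ¬ (s : ℝ) + r ≤ h'.rr x from hx)).le.trans ht) _))
  rw [e]
  refine (C.t.Tr_add_le _ _).trans ((add_le_add
    (mul_le_mul_right ((C.t.Tr_add_le _ _).trans
      (add_le_add (mul_le_mul_right a1 2) (mul_le_mul_right a2 2))) 2)
    (mul_le_mul_right ((C.t.Tr_add_le _ _).trans
      (add_le_add (mul_le_mul_right a3 2) (mul_le_mul_right a4 2))) 2)).trans (le_of_eq ?_))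
  ring

end Vale.Agent.P092RW
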